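import Mathlib

/-!
# P113, second formalization: definitions

All analytic notions are stated for real-valued functions (the components of the fields);
Turing machines are the textbook ones (finite state set, finite alphabet, total transition function,
tape indexed by the integers).
-/

namespace Vale.Agent.Lib.P113b

open Set
open scoped ContDiff

/-- Points of `ℝ^3`, the universal cover of the torus `(ℝ/ℤ)^3`. -/
abbrev R3 : Type := Fin 3 → ℝ

/-- The `i`-th unit vector. -/
def e (i : Fin 3) : R3 := Pi.single i 1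

/-- `g` is invariant under the lattice `ℤ^3`, that is, `g` is a function on the torus. -/
def Per {β : Type} (g : R3 → β) : Prop := ∀ (i : Fin 3) (x : R3), g (x + e i) = g x

/-- Differentiability in space. -/
def Diff (g : R3 → ℝ) : Prop := Differentiable ℝ g

/-- The space derivative `∂_i g`. -/
noncomputable def pd (i : Fin 3) (g : R3 → ℝ) (x : R3) : ℝ := fderiv ℝ g x (e i)

/-- Differentiability in time on `[0, T]` (one-sided at the end points). -/
def DiffT (T : ℝ) (g : ℝ → R3 → ℝ) : Prop :=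
  ∀ t ∈ Icc 0 T, ∀ x, DifferentiableWithinAt ℝ (fun s => g s x) (Icc 0 T) t

/-- The time derivative on `[0, T]` (one-sided at the end points). -/
noncomputable def dt (T : ℝ) (g : ℝ → R3 → ℝ) (t : ℝ) (x : R3) : ℝ :=
  derivWithin (fun s => g s x) (Icc 0 T) t

/-- Joint continuity on `[0, T] × ℝ^3`. -/
def JCont (T : ℝ) (g : ℝ → R3 → ℝ) : Prop :=
  ContinuousOn (fun z : ℝ × R3 => g z.1 z.2) (Icc 0 T ×ˢ univ)

/-- Regularity of a velocity component: `g`, `∂_t g`, `∂_i g`, `∂_i ∂_k g` exist and are continuous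
on `[0, T] × ℝ^3`. -/
def RegU (T : ℝ) (g : ℝ → R3 → ℝ) : Prop :=
  DiffT T g ∧ (∀ t ∈ Icc 0 T, Diff (g t) ∧ ∀ i, Diff (pd i (g t))) ∧
  JCont T g ∧ JCont T (dt T g) ∧ (∀ i, JCont T (fun t => pd i (g t))) ∧
  ∀ i k, JCont T (fun t => pd i (pd k (g t)))

/-- Regularity of the pressure: `p` and `∂_i p` exist and are continuous on `[0, T] × ℝ^3`. -/
def RegP (T : ℝ) (p : ℝ → R3 → ℝ) : Prop :=
  (∀ t ∈ Icc 0 T, Diff (p t)) ∧ JCont T p ∧ ∀ i, JCont T (fun t => pd i (p t))

/-- The `j`-th component of a time-dependent vector field. -/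
def cmp (j : Fin 3) (u : ℝ → R3 → R3) : ℝ → R3 → ℝ := fun t x => u t x j

/-- The momentum equation `∂_t u + (u·∇)u = -∇p + νΔu + f`, component by component. -/
def Momentum (ν : ℝ) (f : ℝ → R3 → R3) (T : ℝ) (u : ℝ → R3 → R3) (p : ℝ → R3 → ℝ) : Prop :=
  ∀ t ∈ Icc 0 T, ∀ (x : R3) (j : Fin 3),
    dt T (cmp j u) t x + ∑ i, u t x i * pd i (cmp j u t) x
      = - pd j (p t) x + ν * ∑ i, pd i (pd i (cmp j u t)) x + f t x j

/-- `div u = 0`. -/
def DivFree (T : ℝ) (u : ℝ → R3 → R3) : Prop :=
  ∀ t ∈ Icc 0 T, ∀ x : R3, ∑ i, pd i (cmp i u t) x = 0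

/-- The pressure has mean zero over the torus. -/
def MeanZero (T : ℝ) (p : ℝ → R3 → ℝ) : Prop :=
  ∀ t ∈ Icc 0 T, ∫ x in Icc (0 : R3) 1, p t x = 0

/-- `(u, p)` is a classical solution on `[0, T]` of the forced Navier-Stokes system on the torus
with viscosity `ν`, force `f` and zero initial velocity. -/
def IsClassicalSolution (ν : ℝ) (f : ℝ → R3 → R3) (T : ℝ)
    (u : ℝ → R3 → R3) (p : ℝ → R3 → ℝ) : Prop :=
  (∀ t ∈ Icc 0 T, Per (u t) ∧ Per (p t)) ∧ (∀ j, RegU T (cmp j u)) ∧ RegP T p ∧
  Momentum ν f T u p ∧ DivFree T u ∧ (∀ x j, u 0 x j = 0) ∧ MeanZero T p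

/-- `X` is the trajectory of the particle that starts at `a` in the velocity field `u`. -/
def IsTrajectory (u : ℝ → R3 → R3) (a : R3) (X : ℝ → R3) : Prop :=
  X 0 = a ∧ ∀ t, 0 ≤ t → ∀ j, HasDerivWithinAt (fun s => X s j) (u t (X t) j) (Ici 0) t

/-- Smoothness in `(t, x)`. -/
def Smooth (g : ℝ → R3 → ℝ) : Prop := ContDiff ℝ ∞ (fun z : ℝ × R3 => g z.1 z.2)

/-- A deterministic one-tape Turing machine: states `0, …, nQ` with start state `0`, tape symbols
`0, …, nS` with blank `0`, a set of halting states, and a transition function giving the new state,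
the symbol written and the move (`true`: right, `false`: left). -/
structure TM where
  nQ : ℕ
  nS : ℕ
  halting : Fin (nQ + 1) → Bool
  δ : Fin (nQ + 1) → Fin (nS + 1) → Fin (nQ + 1) × Fin (nS + 1) × Bool

/-- A configuration: state, head position, contents of the two-sided tape. -/
abbrev TM.Cfg (M : TM) : Type := Fin (M.nQ + 1) × ℤ × (ℤ → Fin (M.nS + 1))

/-- One step. -/
def TM.step (M : TM) (c : M.Cfg) : M.Cfg :=
  ((M.δ c.1 (c.2.2 c.2.1)).1,
    if (M.δ c.1 (c.2.2 c.2.1)).2.2 then c.2.1 + 1 else c.2.1 - 1,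
    Function.update c.2.2 c.2.1 (M.δ c.1 (c.2.2 c.2.1)).2.1)

/-- The initial configuration: `w` written from cell `0` on, all other cells blank, head at `0`. -/
def TM.init (M : TM) (w : List (Fin (M.nS + 1))) : M.Cfg :=
  (0, 0, fun i => if 0 ≤ i then w.getD i.toNat 0 else 0)

/-- `M` halts on `w`: a halting state is reached after finitely many steps. -/
def TM.Halts (M : TM) (w : List (Fin (M.nS + 1))) : Prop :=
  ∃ n : ℕ, M.halting (M.step^[n] (M.init w)).1 = true

/-- The finite description of a machine that is handed to algorithms: the list of its quintuples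
`((q, a), (q', b, move))` and the list of its halting states. -/
def TM.desc (M : TM) : List ((ℕ × ℕ) × (ℕ × ℕ × Bool)) × List ℕ :=
  (((List.finRange (M.nQ + 1)).product (List.finRange (M.nS + 1))).map
      fun k : Fin (M.nQ + 1) × Fin (M.nS + 1) =>
        ((k.1.val, k.2.val), ((M.δ k.1 k.2).1.val, (M.δ k.1 k.2).2.1.val, (M.δ k.1 k.2).2.2)),
    ((List.finRange (M.nQ + 1)).filter fun q => M.halting q).map Fin.val)

/-- Codes of rational numbers: `(a, b, d)` stands for `(a - b) / (d + 1)`. -/
abbrev QCode : Type := ℕ × ℕ × ℕ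

/-- The rational number (as a real) that a code stands for. -/
noncomputable def qval (c : QCode) : ℝ := ((c.1 : ℝ) - (c.2.1 : ℝ)) / ((c.2.2 : ℝ) + 1)

/-- Time derivative. -/
noncomputable def dT (g : ℝ → R3 → ℝ) : ℝ → R3 → ℝ := fun t x => deriv (fun s => g s x) t

/-- Derivative in the `j`-th space direction. -/
noncomputable def dX (j : Fin 3) (g : ℝ → R3 → ℝ) : ℝ → R3 → ℝ := fun t => pd j (g t)

/-- The mixed derivative `∂_t^k ∂_1^{a 0} ∂_2^{a 1} ∂_3^{a 2} g`. -/
noncomputable def mixedDeriv (k : ℕ) (a : Fin 3 → ℕ) (g : ℝ → R3 → ℝ) : ℝ → R3 → ℝ :=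
  dT^[k] ((dX 0)^[a 0] ((dX 1)^[a 1] ((dX 2)^[a 2] g)))

/-- The program `c` computes the force `f`: asked for the component `i` of a mixed derivative at a
rational point `(t, x)` and given a rational accuracy `ε > 0`, it halts and returns a
rational number within `ε` of the true value. -/
def IsProgramFor (c : Nat.Partrec.Code) (f : ℝ → R3 → R3) : Prop :=
  ∀ (k : ℕ) (a : Fin 3 → ℕ) (i : Fin 3) (t : QCode) (x : Fin 3 → QCode) (ε : QCode),
    0 < qval ε →
    ∃ r : QCode,
      c.eval (Encodable.encode (k, (a 0, a 1, a 2), i, t, (x 0, x 1, x 2), ε))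
        = Part.some (Encodable.encode r) ∧
      |mixedDeriv k a (cmp i f) (qval t) (fun j => qval (x j)) - qval r| ≤ qval ε

/-- A force compiler: an algorithm `compile` that turns (the description of) every machine and
every input into a program for a smooth force on the torus, such that from the time `T0` on the
force is periodic in time and depends on the machine only. -/
structure ForceCompiler where
  force : (M : TM) → List (Fin (M.nS + 1)) → ℝ → R3 → R3
  compile : (List ((ℕ × ℕ) × (ℕ × ℕ × Bool)) × List ℕ) × List ℕ → Nat.Partrec.Code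
  computable : Computable compile
  smooth : ∀ M w j, Smooth (cmp j (force M w))
  per : ∀ M w t, Per (force M w t)
  program : ∀ M w, IsProgramFor (compile (M.desc, w.map Fin.val)) (force M w)
  T0 : ℝ
  periodic : ∀ M, ∃ P : ℝ, 0 < P ∧ ∀ w t x, T0 ≤ t → force M w (t + P) x = force M w t x
  machine_only : ∀ M w w' t x, T0 ≤ t → force M w t x = force M w' t x

end Vale.Agent.Lib.P113b
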