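import Vale.Agent.Lib.P113.Defs
import Vale.Agent.Lib.P113b.Defs

/-!
# P113, second formalization: the textbook machines agree with their table descriptions
-/

namespace Vale.Agent.Lib.P113b

open Vale.Agent.Lib

theorem lookup_map_of_injective {α β γ : Type*} [BEq β] [LawfulBEq β] (key : α → β)
    (hinj : Function.Injective key) (v : α → γ) (L : List α) (k0 : α) (h : k0 ∈ L) :
    (L.map fun k => (key k, v k)).lookup (key k0) = some (v k0) := by
  induction L with
  | nil => simp at h
  | cons k L ih =>
    simp only [List.map_cons, List.lookup_cons]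
    by_cases hk : key k0 = key k
    · have : k0 = k := hinj hk
      subst this
      simp
    · have hne : (key k0 == key k) = false := by simpa using hk
      rw [hne]
      have : k0 ∈ L := by
        rcases List.mem_cons.1 h with rfl | h'
        · exact absurd rfl hk
        · exact h'
      exact ih this

theorem getD_tail (l : List ℕ) (i : ℕ) : l.tail.getD i 0 = l.getD (i + 1) 0 := by
  cases l <;> simp

theorem headD_eq (l : List ℕ) : l.headD 0 = l.getD 0 0 := by
  cases l <;> simp

theorem lookup_desc (M : TM) (q : Fin (M.nQ + 1)) (a : Fin (M.nS + 1)) :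
    M.desc.1.lookup ((q : ℕ), (a : ℕ))
      = some (((M.δ q a).1 : ℕ), ((M.δ q a).2.1 : ℕ), (M.δ q a).2.2) := by
  have := lookup_map_of_injective
    (key := fun k : Fin (M.nQ + 1) × Fin (M.nS + 1) => ((k.1 : ℕ), (k.2 : ℕ)))
    (by
      rintro ⟨a1, a2⟩ ⟨b1, b2⟩ h
      simp only [Prod.mk.injEq] at h
      exact Prod.ext (Fin.ext h.1) (Fin.ext h.2))
    (fun k => (((M.δ k.1 k.2).1 : ℕ), ((M.δ k.1 k.2).2.1 : ℕ), (M.δ k.1 k.2).2.2))
    ((List.finRange (M.nQ + 1)).product (List.finRange (M.nS + 1))) (q, a)
    (by simp [List.product, List.mem_finRange])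
  exact this

theorem mem_desc_halting (M : TM) (q : Fin (M.nQ + 1)) :
    (q : ℕ) ∈ M.desc.2 ↔ M.halting q = true := by
  simp only [TM.desc, List.mem_map, List.mem_filter, List.mem_finRange, true_and]
  constructor
  · rintro ⟨q', h, he⟩
    rwa [← Fin.ext he]
  · intro h
    exact ⟨q, h, rfl⟩

/-- The list configuration `c'` represents the configuration `c`. -/
def Rep (M : TM) (c : M.Cfg) (c' : P113.Cfg) : Prop :=
  c'.1 = (c.1 : ℕ) ∧ (∀ i : ℕ, c'.2.2.getD i 0 = ((c.2.2 (c.2.1 + i)) : ℕ)) ∧
    (∀ i : ℕ, c'.2.1.getD i 0 = ((c.2.2 (c.2.1 - 1 - i)) : ℕ))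

theorem rep_init (M : TM) (w : List (Fin (M.nS + 1))) :
    Rep M (M.init w) (0, [], w.map Fin.val) := by
  refine ⟨rfl, fun i => ?_, fun i => ?_⟩
  · simp only [TM.init]
    have h0 : (0 : ℤ) ≤ 0 + (i : ℤ) := by positivity
    rw [if_pos h0]
    have : (0 + (i : ℤ)).toNat = i := by simp
    rw [this]
    have h := List.getD_map (f := (Fin.val : Fin (M.nS + 1) → ℕ)) (l := w) (n := i) (d := 0)
    simpa using h
  · simp only [TM.init]
    have h0 : ¬ (0 : ℤ) ≤ 0 - 1 - (i : ℤ) := by
      have : (0 : ℤ) ≤ (i : ℤ) := by positivity
      omega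
    rw [if_neg h0]
    simp

theorem rep_step (M : TM) (c : M.Cfg) (c' : P113.Cfg) (h : Rep M c c') :
    Rep M (M.step c) (P113.step M.desc c') := by
  obtain ⟨q, pos, tape⟩ := c
  obtain ⟨q', L, R⟩ := c'
  obtain ⟨hq, hR, hL⟩ := h
  simp only at hq hR hL
  subst hq
  have hhead : R.headD 0 = ((tape pos) : ℕ) := by
    rw [headD_eq, hR 0]; simp
  simp only [P113.step, hhead, lookup_desc]
  cases hd : (M.δ q (tape pos)).2.2 with
  | true =>
    refine ⟨rfl, fun i => ?_, fun i => ?_⟩
    · simp only [TM.step, hd, if_true]
      rw [getD_tail, hR (i + 1)]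
      have hne : pos + 1 + (i : ℤ) ≠ pos := by
        have : (0 : ℤ) ≤ (i : ℤ) := by positivity
        omega
      rw [Function.update_of_ne hne]
      congr 2
      push_cast
      ring
    · simp only [TM.step, hd, if_true]
      cases i with
      | zero =>
        have : pos + 1 - 1 - ((0 : ℕ) : ℤ) = pos := by simp
        rw [this, Function.update_self]
        simp
      | succ k =>
        have hne : pos + 1 - 1 - ((k + 1 : ℕ) : ℤ) ≠ pos := by
          have : (0 : ℤ) ≤ (k : ℤ) := by positivity
          push_cast
          omega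
        rw [Function.update_of_ne hne, List.getD_cons_succ, hL k]
        congr 2
        push_cast
        ring
  | false =>
    refine ⟨rfl, fun i => ?_, fun i => ?_⟩
    · simp only [TM.step, hd]
      cases i with
      | zero =>
        have hne : pos - 1 + ((0 : ℕ) : ℤ) ≠ pos := by simp
        simp only [Bool.false_eq_true, if_false]
        rw [Function.update_of_ne hne, List.getD_cons_zero, headD_eq, hL 0]
        congr 2
      | succ k =>
        cases k with
        | zero =>
          have : pos - 1 + ((0 + 1 : ℕ) : ℤ) = pos := by simp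
          simp only [Bool.false_eq_true, if_false]
          rw [this, Function.update_self]
          simp
        | succ m =>
          have hne : pos - 1 + ((m + 1 + 1 : ℕ) : ℤ) ≠ pos := by
            have : (0 : ℤ) ≤ (m : ℤ) := by positivity
            push_cast
            omega
          simp only [Bool.false_eq_true, if_false]
          rw [Function.update_of_ne hne, List.getD_cons_succ, List.getD_cons_succ, getD_tail,
            hR (m + 1)]
          congr 2
          push_cast
          ring
    · simp only [TM.step, hd, Bool.false_eq_true, if_false]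
      have hne : pos - 1 - 1 - (i : ℤ) ≠ pos := by
        have : (0 : ℤ) ≤ (i : ℤ) := by positivity
        omega
      rw [Function.update_of_ne hne, getD_tail, hL (i + 1)]
      congr 2
      push_cast
      ring

theorem rep_iterate (M : TM) (w : List (Fin (M.nS + 1))) (n : ℕ) :
    Rep M (M.step^[n] (M.init w)) ((P113.step M.desc)^[n] (0, [], w.map Fin.val)) := by
  induction n with
  | zero => exact rep_init M w
  | succ n ih =>
    rw [Function.iterate_succ_apply', Function.iterate_succ_apply']
    exact rep_step M _ _ ih

theorem halts_iff_desc (M : TM) (w : List (Fin (M.nS + 1))) :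
    M.Halts w ↔ P113.Halts M.desc (w.map Fin.val) := by
  unfold TM.Halts P113.Halts
  refine exists_congr fun n => ?_
  rw [(rep_iterate M w n).1, mem_desc_halting]

end Vale.Agent.Lib.P113b
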