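import Vale.Agent.Lib.P113.Uniqueness
import Vale.Agent.Lib.P113.Solution
import Vale.Agent.Lib.P113b.Sim

/-!
# P113, second formalization: transfer from the first one
-/

namespace Vale.Agent.Lib.P113b

open Set Vale.Agent.Lib
open scoped ContDiff

theorem pdv_apply {g : R3 → R3} (h : ∀ j, Diff (fun y => g y j)) (i : Fin 3) :
    P113.pdv i g = fun x j => pd i (fun y => g y j) x := by
  funext x j
  unfold P113.pdv pd
  have := fderiv_pi (𝕜 := ℝ) (φ := fun j y => g y j) (x := x) (fun j => (h j) x)
  have h2 : fderiv ℝ g x = ContinuousLinearMap.pi fun j => fderiv ℝ (fun y => g y j) x := this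
  rw [h2]
  rfl

theorem diffV_of {g : R3 → R3} (h : ∀ j, Diff (fun y => g y j)) : P113.DiffV g :=
  differentiable_pi.2 h

theorem jcontV_of {T : ℝ} {g : ℝ → R3 → R3} (h : ∀ j, JCont T (fun t x => g t x j)) :
    P113.JContV T g :=
  continuousOn_pi.2 h

theorem classical_of_b {ν : ℝ} {f : ℝ → R3 → R3} {T : ℝ} {u : ℝ → R3 → R3} {p : ℝ → R3 → ℝ}
    (h : IsClassicalSolution ν f T u p) : P113.IsClassicalSolution ν f T u p := by
  obtain ⟨hper, hU, hP, hmom, hdiv, h0, hmean⟩ := h
  have hd1 : ∀ t ∈ Icc 0 T, ∀ j, Diff (fun y => u t y j) := fun t ht j => ((hU j).2.1 t ht).1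
  have hp1 : ∀ t ∈ Icc 0 T, ∀ i, P113.pdv i (u t) = fun x j => pd i (cmp j u t) x :=
    fun t ht i => pdv_apply (hd1 t ht) i
  have hd2 : ∀ t ∈ Icc 0 T, ∀ i j, Diff (fun y => P113.pdv i (u t) y j) := by
    intro t ht i j
    rw [hp1 t ht i]
    exact ((hU j).2.1 t ht).2 i
  have hp2 : ∀ t ∈ Icc 0 T, ∀ i k,
      P113.pdv i (P113.pdv k (u t)) = fun x j => pd i (pd k (cmp j u t)) x := by
    intro t ht i k
    rw [pdv_apply (hd2 t ht k) i, hp1 t ht k]
  have hdt : ∀ t ∈ Icc 0 T, ∀ x, P113.dtW T u t x = fun j => dt T (cmp j u) t x := by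
    intro t ht x
    unfold P113.dtW
    exact derivWithin_pi fun j => (hU j).1 t ht x
  refine ⟨hper, ⟨?_, ?_, ?_, ?_, ?_, ?_, hP.2.1, hP.2.2⟩, ?_, ?_, ?_, hmean⟩
  · intro t ht x
    exact differentiableWithinAt_pi.2 fun j => (hU j).1 t ht x
  · intro t ht
    exact ⟨diffV_of (hd1 t ht), fun i => diffV_of (hd2 t ht i), hP.1 t ht⟩
  · exact jcontV_of fun j => (hU j).2.2.1
  · refine jcontV_of fun j => ?_
    refine ((hU j).2.2.2.1).congr fun z hz => ?_
    simp only [hdt z.1 hz.1 z.2]
  · intro i
    refine jcontV_of fun j => ?_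
    refine ((hU j).2.2.2.2.1 i).congr fun z hz => ?_
    simp only [hp1 z.1 hz.1 i]
  · intro i k
    refine jcontV_of fun j => ?_
    refine ((hU j).2.2.2.2.2 i k).congr fun z hz => ?_
    simp only [hp2 z.1 hz.1 i k]
  · intro t ht x j
    have := hmom t ht x j
    simp only [hdt t ht x, hp2 t ht]
    simp only [hp1 t ht]
    exact this
  · intro t ht x
    have := hdiv t ht x
    simp only [hp1 t ht]
    exact this
  · intro x
    funext j
    exact h0 x j

theorem trajectory_iff {u : ℝ → R3 → R3} {a : R3} {X : ℝ → R3} :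
    IsTrajectory u a X ↔ P113.IsTrajectory u a X := by
  unfold IsTrajectory P113.IsTrajectory
  refine and_congr Iff.rfl (forall_congr' fun t => forall_congr' fun _ => ?_)
  exact hasDerivWithinAt_pi.symm

/-- A scalar field that depends on time only. -/
def sf (g : ℝ → ℝ) : ℝ → R3 → ℝ := fun t _ => g t

theorem cmp_tf (j : Fin 3) (g : ℝ → ℝ) : cmp j (P113.tf g) = sf g := rfl

theorem pd_const (i : Fin 3) (c : ℝ) : pd i (fun _ => c) = fun _ => 0 := by
  funext x
  unfold pd
  simp

theorem dX_sf (j : Fin 3) (g : ℝ → ℝ) : dX j (sf g) = sf (fun _ => 0) := by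
  funext t x
  have h : sf g t = fun _ => g t := rfl
  simp only [dX, h, pd_const]
  rfl

theorem dX_iter_sf (j : Fin 3) (n : ℕ) (g : ℝ → ℝ) :
    (dX j)^[n] (sf g) = if n = 0 then sf g else sf (fun _ => 0) := by
  induction n with
  | zero => simp
  | succ n ih =>
    rw [Function.iterate_succ_apply', ih]
    split <;> simp [dX_sf]

theorem dT_sf {g g' : ℝ → ℝ} (h : ∀ t, HasDerivAt g (g' t) t) : dT (sf g) = sf g' := by
  funext t x
  exact (h t).deriv

theorem dT_iter_zero (k : ℕ) : dT^[k] (sf (fun _ => 0)) = sf (fun _ => 0) := by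
  induction k with
  | zero => rfl
  | succ k ih =>
    rw [Function.iterate_succ_apply', ih]
    exact dT_sf fun t => hasDerivAt_const t 0

theorem dT_iter_psi (c : ℝ) (k : ℕ) :
    dT^[k] (sf (fun t => c * P113.psi t)) = sf (fun t => c * P113.Dk k 0 t) := by
  induction k with
  | zero => simp [P113.Dk_zero_zero]
  | succ k ih =>
    rw [Function.iterate_succ_apply', ih]
    exact dT_sf fun t => (P113.Dk_hasDerivAt k 0 t).const_mul c

theorem mixedDeriv_sf (c : ℝ) (k : ℕ) (a : Fin 3 → ℕ) :
    mixedDeriv k a (sf (fun t => c * P113.psi t)) =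
      if a 0 + a 1 + a 2 = 0 then sf (fun t => c * P113.Dk k 0 t) else sf (fun _ => 0) := by
  unfold mixedDeriv
  by_cases h2 : a 2 = 0
  · by_cases h1 : a 1 = 0
    · by_cases h0 : a 0 = 0
      · simp [h0, h1, h2, dT_iter_psi]
      · simp [h0, h1, h2, dX_iter_sf, dT_iter_zero]
    · simp [h1, h2, dX_iter_sf, dT_iter_zero]
  · simp [h2, dX_iter_sf, dT_iter_zero]

theorem mixedDeriv_eq (M : P113.Machine) (w : List ℕ) (k : ℕ) (a : Fin 3 → ℕ) (i : Fin 3)
    (t : ℝ) (x : R3) :
    mixedDeriv k a (cmp i (P113.theForce M w)) t x = P113.mixedDeriv k a (P113.theForce M w) t x i := by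
  unfold P113.theForce
  rw [cmp_tf, mixedDeriv_sf, P113.mixedDeriv_tf]
  split <;> rfl

theorem tf_classical (ν : ℝ) {T : ℝ} (hT : 0 < T) {g g' : ℝ → ℝ} (hg : ∀ t, HasDerivAt g (g' t) t)
    (hg' : Continuous g') (h0 : g 0 = 0) :
    IsClassicalSolution ν (P113.tf g') T (P113.tf g) (fun _ _ => 0) := by
  have hgc : Continuous g := continuous_iff_continuousAt.2 fun t => (hg t).continuousAt
  have hd : ∀ t ∈ Icc 0 T, ∀ x, dt T (sf g) t x = g' t := by
    intro t ht x
    exact (hg t).hasDerivWithinAt.derivWithin (uniqueDiffOn_Icc hT t ht)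
  have hs : ∀ t, sf g t = fun _ => g t := fun _ => rfl
  refine ⟨fun t _ => ⟨fun i x => rfl, fun i x => rfl⟩, fun j => ?_, ?_, ?_, ?_, ?_, ?_⟩
  · rw [cmp_tf]
    refine ⟨?_, ?_, ?_, ?_, ?_, ?_⟩
    · intro t _ x
      exact (hg t).differentiableAt.differentiableWithinAt
    · intro t _
      refine ⟨differentiable_const _, fun i => ?_⟩
      rw [hs, pd_const]
      exact differentiable_const _
    · exact (hgc.comp continuous_fst).continuousOn
    · have : ContinuousOn (fun z : ℝ × R3 => g' z.1) (Icc 0 T ×ˢ univ) :=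
        (hg'.comp continuous_fst).continuousOn
      exact this.congr fun z hz => hd z.1 hz.1 z.2
    · intro i
      unfold JCont
      simp only [hs, pd_const]
      exact continuousOn_const
    · intro i k
      unfold JCont
      simp only [hs, pd_const]
      exact continuousOn_const
  · refine ⟨fun t _ => differentiable_const _, continuousOn_const, fun i => ?_⟩
    unfold JCont
    simp only [pd_const]
    exact continuousOn_const
  · intro t ht x j
    rw [cmp_tf, hd t ht x]
    simp [hs, pd_const, P113.tf]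
  · intro t _ x
    simp [cmp_tf, hs, pd_const]
  · intro x j
    simp [P113.tf, h0]
  · intro t _
    simp

/-- The force compiler. -/
noncomputable def theCompiler : ForceCompiler where
  force := fun M w => P113.theForce M.desc (w.map Fin.val)
  compile := P113.theCompiler.compile
  computable := P113.theCompiler.computable
  smooth := by
    intro M w j
    have := P113.theForce_smooth M.desc (w.map Fin.val)
    unfold P113.SmoothV at this
    exact (contDiff_pi.1 this) j
  per := fun _ _ _ _ _ => rfl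
  program := by
    intro M w k a i t x ε hε
    refine ⟨P113.approx ((M.desc, w.map Fin.val), (k, (a 0, a 1, a 2), i, t, (x 0, x 1, x 2), ε)),
      ?_, ?_⟩
    · show (Nat.Partrec.Code.curry P113.baseCode _).eval _ = _
      rw [Nat.Partrec.Code.eval_curry]
      exact P113.baseCode_spec (M.desc, w.map Fin.val) _
    · rw [mixedDeriv_eq]
      exact P113.approx_spec M.desc (w.map Fin.val) k a i t x ε hε
  T0 := 1
  periodic := by
    intro M
    refine ⟨1, one_pos, fun w t x ht => ?_⟩
    funext _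
    simp [P113.theForce, P113.tf, P113.psi_zero ht, P113.psi_zero (by linarith : (1 : ℝ) ≤ t + 1)]
  machine_only := by
    intro M w w' t x ht
    funext _
    simp [P113.theForce, P113.tf, P113.psi_zero ht]

end Vale.Agent.Lib.P113b
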